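import Vale.Agent.P144Z.R8.Last
import Vale.Agent.P144Z.C.Main
import Vale.Agent.P144Z.R2.Main
import Vale.Agent.P144Z.R4a.Main
import Vale.Agent.P144Z.R4b.Main

/-!
# Defect steps: norms, linearity of the extraction, anchored sums
-/

namespace Vale.Agent.P144Z.R8

open Finset Matrix Geo

section pn

variable {g : Geo} {ℓ : ℕ} {h β : ℝ}

/-- The parameters of a norm are admissible. -/
structure Ad (g : Geo) (ℓ : ℕ) (h β : ℝ) : Prop where
  sign : IsSign g.A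
  l : 1 ≤ ℓ
  h : 0 < h
  b : 0 < β

theorem pn_nonneg (X : Finset g.P) (F : g.E) : 0 ≤ g.pn ℓ h β X F := Real.sSup_nonneg (by
  rintro _ ⟨r, -, rfl⟩
  exact norm_nonneg _)

theorem Ad.add (a : Ad g ℓ h β) (X : Finset g.P) (F G : g.E) :
    g.pn ℓ h β X (F + G) ≤ g.pn ℓ h β X F + g.pn ℓ h β X G := by
  obtain ⟨𝓛, -, h2⟩ := exists_locSys a.sign a.l a.h a.b
  rw [← h2]
  exact 𝓛.p_add X F G

theorem Ad.smul (a : Ad g ℓ h β) (X : Finset g.P) (c : ℝ) (F : g.E) :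
    g.pn ℓ h β X (c • F) = |c| * g.pn ℓ h β X F := by
  obtain ⟨𝓛, -, h2⟩ := exists_locSys a.sign a.l a.h a.b
  rw [← h2]
  exact 𝓛.p_smul X c F

theorem Ad.mono (a : Ad g ℓ h β) {X Y : Finset g.P} (hXY : X ⊆ Y) {F : g.E} (hF : F ∈ g.sub X) :
    g.pn ℓ h β Y F ≤ g.pn ℓ h β X F := by
  obtain ⟨𝓛, h1, h2⟩ := exists_locSys a.sign a.l a.h a.b
  rw [← h2]
  exact 𝓛.p_mono hXY (by rwa [h1])

theorem Ad.zero (a : Ad g ℓ h β) (X : Finset g.P) : g.pn ℓ h β X 0 = 0 := by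
  rw [← zero_smul ℝ (0 : g.E), a.smul, abs_zero, zero_mul]

theorem Ad.neg (a : Ad g ℓ h β) (X : Finset g.P) (F : g.E) :
    g.pn ℓ h β X (-F) = g.pn ℓ h β X F := by
  rw [← neg_one_smul ℝ F, a.smul, abs_neg, abs_one, one_mul]

theorem Ad.sub (a : Ad g ℓ h β) (X : Finset g.P) (F G : g.E) :
    g.pn ℓ h β X (F - G) ≤ g.pn ℓ h β X F + g.pn ℓ h β X G := by
  rw [sub_eq_add_neg, ← a.neg X G]
  exact a.add X _ _

theorem Ad.sum (a : Ad g ℓ h β) (X : Finset g.P) {ι : Type*} (t : Finset ι) (F : ι → g.E) :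
    g.pn ℓ h β X (∑ i ∈ t, F i) ≤ ∑ i ∈ t, g.pn ℓ h β X (F i) :=
  le_sum_of_subadditive (g.pn ℓ h β X) (a.zero X).le (a.add X) t F

theorem Ad.half (a : Ad g ℓ h β) : Ad g ℓ (h / 2) β := ⟨a.sign, a.l, half_pos a.h, a.b⟩

theorem Ad.half_le (a : Ad g ℓ h β) {X : Finset g.P} {F : g.E} (hF : F ∈ g.sub X) :
    g.pn ℓ (h / 2) β X F ≤ g.pn ℓ h β X F :=
  pn_mono a.sign a.l a.h a.b hF (half_pos a.h) a.b (half_le_self a.h.le) le_rfl

theorem Ad.sub_noF (a : Ad g ℓ h β) {X : Finset g.P} {F : g.E} (hF : F ∈ g.sub X) :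
    g.pn ℓ h β X (F - g.noF F) ≤ 2 * g.pn ℓ h β X F := by
  have h1 := a.sub X F (g.noF F)
  have h2 := pn_noF_le a.sign a.l a.h a.b hF
  linarith

theorem Ad.dp (a : Ad g ℓ h β) {X : Finset g.P} {F : g.E} (hF : F ∈ g.sub X) (ℓ₁ : ℕ)
    (Y : Finset g.P) : g.pn ℓ h β X (g.dp ℓ₁ Y F) ≤ 2 * g.pn ℓ h β X F :=
  pn_dp_le a.sign a.l a.h a.b hF ℓ₁ Y

theorem df_nonneg (s s' : g.St) (X : Finset g.P) : 0 ≤ g.df ℓ h β s s' X :=
  add_nonneg (pn_nonneg _ _) (pn_nonneg _ _)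

theorem bf_nonneg (s : g.St) (X : Finset g.P) : 0 ≤ g.bf ℓ h s X := by
  unfold Geo.bf
  split_ifs
  · exact add_nonneg (pn_nonneg _ _) (pn_nonneg _ _)
  · exact le_rfl

end pn

section alg

variable {g : Geo} {j ℓ ℓ' : ℕ}

theorem Ext_zero (x : g.P) : g.Ext x 0 = 0 := by
  rw [← zero_smul ℝ (0 : g.E), Ext_smul, zero_smul, zero_smul]

theorem Ext_sub (x : g.P) (F G : g.E) : g.Ext x (F - G) = g.Ext x F - g.Ext x G := by
  rw [eq_sub_iff_add_eq, ← Ext_add, sub_add_cancel]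

theorem Ext_sum (x : g.P) {ι : Type*} (t : Finset ι) (F : ι → g.E) :
    g.Ext x (∑ i ∈ t, F i) = ∑ i ∈ t, g.Ext x (F i) :=
  map_sum (AddMonoidHom.mk' (g.Ext x) (Ext_add x)) F t

theorem Ext_of_noB {x : g.P} {F : g.E} (h : g.noB F = 0) : g.Ext x F = 0 := by
  rw [← Ext_noB, h, Ext_zero]

theorem zt_zero (k : g.K) : g.zt k 0 = 0 := by
  rw [← zero_smul ℝ (0 : g.E), zt_smul, zero_mul]

open Classical in
/-- The extracted quadratic terms. -/
noncomputable def xe (g : Geo) (ℓ ℓ' : ℕ) (U : Finset g.P) (F : g.E) : g.E :=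
  if g.Xtr ℓ ℓ' U then ((U.card : ℝ)⁻¹) • ∑ x ∈ U, g.Ext x F else 0

open Classical in
/-- The extracted source terms. -/
noncomputable def xb (g : Geo) (j ℓ ℓ' : ℕ) (U : Finset g.P) (F : g.E) : g.E :=
  ∑ k ∈ univ.filter (fun k => g.XtrB j ℓ ℓ' U k), g.zt k F • g.bE k

theorem xtr_eq (U : Finset g.P) (F : g.E) :
    g.xtr j ℓ ℓ' U F = xe g ℓ ℓ' U F + xb g j ℓ ℓ' U F := rfl

theorem xtr_add (U : Finset g.P) (F G : g.E) :
    g.xtr j ℓ ℓ' U (F + G) = g.xtr j ℓ ℓ' U F + g.xtr j ℓ ℓ' U G := by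
  have h1 : xe g ℓ ℓ' U (F + G) = xe g ℓ ℓ' U F + xe g ℓ ℓ' U G := by
    unfold xe
    split_ifs
    · simp only [Ext_add, sum_add_distrib, smul_add]
    · rw [add_zero]
  have h2 : xb g j ℓ ℓ' U (F + G) = xb g j ℓ ℓ' U F + xb g j ℓ ℓ' U G := by
    simp only [xb, zt_add, add_smul, sum_add_distrib]
  rw [xtr_eq, xtr_eq, xtr_eq, h1, h2]
  abel

theorem xtr_zero (U : Finset g.P) : g.xtr j ℓ ℓ' U 0 = 0 := by
  have h := xtr_add (j := j) (ℓ := ℓ) (ℓ' := ℓ') U 0 0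
  rw [add_zero] at h
  exact left_eq_add.1 h

theorem xtr_sub (U : Finset g.P) (F G : g.E) :
    g.xtr j ℓ ℓ' U (F - G) = g.xtr j ℓ ℓ' U F - g.xtr j ℓ ℓ' U G := by
  rw [eq_sub_iff_add_eq, ← xtr_add, sub_add_cancel]

open Classical in
theorem xtr_large {U : Finset g.P} (hU : ¬ stein U ≤ ℓ) (F : g.E) : g.xtr j ℓ ℓ' U F = 0 := by
  rw [xtr_eq, xe, if_neg fun h => hU h.1, xb, zero_add]
  exact sum_eq_zero fun k hk => absurd (mem_filter.1 hk).2.1.1 hU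

theorem star_subset_plus {U : Finset g.P} {x : g.P} (hx : x ∈ U) : star x ⊆ plus U :=
  subset_biUnion_of_mem star hx

theorem xe_mem (U : Finset g.P) (F : g.E) : xe g ℓ ℓ' U F ∈ g.sub (plus U) := by
  unfold xe
  split_ifs
  · exact Subalgebra.smul_mem _ (sum_mem fun x hx => sub_mono (star_subset_plus hx) (Ext_mem x F)) _
  · exact zero_mem _

open Classical in
theorem xb_mem (U : Finset g.P) (F : g.E) : xb g j ℓ ℓ' U F ∈ g.sub (plus U) :=
  sum_mem fun k hk => Subalgebra.smul_mem _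
    (sub_mono (star_subset_plus (mem_filter.1 hk).2.2.1) (bE_mem k)) _

theorem subset_tgt (U : Finset g.P) : U ⊆ g.tgt ℓ U := by
  unfold Geo.tgt
  split_ifs
  · exact G.subset_plus U
  · exact Subset.rfl

theorem sub_xtr_mem {U : Finset g.P} {F : g.E} (hF : F ∈ g.sub U) :
    F - g.xtr j ℓ ℓ' U F ∈ g.sub (g.tgt ℓ U) := by
  by_cases hU : stein U ≤ ℓ
  · rw [Geo.tgt, if_pos hU, xtr_eq]
    exact sub_mem (sub_mono (G.subset_plus U) hF) (add_mem (xe_mem U F) (xb_mem U F))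
  · rw [xtr_large hU, sub_zero]
    exact sub_mono (subset_tgt U) hF

variable {C : Matrix (Tor g.M × Fin 4) (Tor g.M × Fin 4) ℝ}

theorem Lin_add (F G : g.E) : g.Lin C (F + G) = g.Lin C F + g.Lin C G := by
  simp only [Geo.Lin, map_add]
  abel

theorem Lin_zero : g.Lin C 0 = 0 := by simp only [Geo.Lin, map_zero, sub_self]

theorem Lin_mem (hC : Cᵀ = -C) {X : Finset g.P} {F : g.E} (hF : F ∈ g.sub X) :
    g.Lin C F ∈ g.sub X :=
  sub_mem (evG_mem C hC hF) (noF_mem (evG_mem C hC hF))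

theorem noF_sub_noF (F : g.E) : g.noF (F - g.noF F) = 0 := by rw [map_sub, noF_noF, sub_self]

theorem noF_Lin (F : g.E) : g.noF (g.Lin C F) = 0 := noF_sub_noF _

theorem noB_Lin (hC : Cᵀ = -C) (F : g.E) : g.noB (g.Lin C F) = g.Lin C (g.noB F) := by
  rw [Geo.Lin, Geo.Lin, map_sub, noB_noF, ← noB_evG C hC, noF_noB]

theorem noB_dp {X : Finset g.P} (h : g.nd ℓ X) (F : g.E) : g.noB (g.dp ℓ X F) = 0 := by
  rw [Geo.dp, if_pos h, map_sub, noB_noB, sub_self]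

theorem noF_dp {X : Finset g.P} {F : g.E} (h : g.noF F = 0) : g.noF (g.dp ℓ X F) = 0 := by
  unfold Geo.dp
  split_ifs
  · rw [map_sub, noF_noB, ← noB_noF, h, map_zero, sub_self]
  · exact h

theorem dp_zero (X : Finset g.P) : g.dp ℓ X 0 = 0 := by
  unfold Geo.dp
  split_ifs
  · rw [map_zero, sub_self]
  · rfl

theorem dp_add (X : Finset g.P) (F G : g.E) : g.dp ℓ X (F + G) = g.dp ℓ X F + g.dp ℓ X G := by
  unfold Geo.dp
  split_ifs
  · rw [map_add]; abel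
  · rfl

open Classical in
/-- The bulk part of a term with support `X`. -/
noncomputable def bp (g : Geo) (ℓ : ℕ) (X : Finset g.P) (F : g.E) : g.E :=
  if g.nd ℓ X then g.noB F else 0

theorem dp_add_bp (X : Finset g.P) (F : g.E) : g.dp ℓ X F + bp g ℓ X F = F := by
  unfold Geo.dp bp
  split_ifs
  · exact sub_add_cancel _ _
  · exact add_zero _

theorem bp_mem {X : Finset g.P} {F : g.E} (hF : F ∈ g.sub X) (Y : Finset g.P) :
    bp g ℓ Y F ∈ g.sub X := by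
  unfold bp
  split_ifs
  · exact noB_mem hF
  · exact zero_mem _

/-- A set that sees a flux or the topology, or contains a source. -/
def Dfc (g : Geo) (ℓ : ℕ) (U : Finset g.P) : Prop := ¬ g.nd ℓ U ∨ ∃ k, (g.src k).y ∈ U

theorem dp_of_not_dfc {X : Finset g.P} (h : ¬ Dfc g ℓ X) {F : g.E} (hF : F ∈ g.sub X) :
    g.dp ℓ X F = 0 := by
  rw [Dfc, not_or, not_not, not_exists] at h
  rw [Geo.dp, if_pos h.1, noB_of_no_src hF h.2, sub_self]

theorem Free.noB_car {s : g.St} (hf : g.Free s) (X : Finset g.P) : g.noB (s.car X) = 0 := by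
  simp only [St.car, hf.2, sum_const_zero, zero_add, map_sum, map_smul, noB_bE, smul_zero]

theorem bf_split {h β : ℝ} (a : Ad g ℓ h β) {s s' : g.St} (hs : g.Wf s) (hf : g.Free s')
    (X : Finset g.P) : g.pn ℓ h β X (bp g ℓ X (s.K X - s'.K X)) +
      g.pn ℓ h β X (bp g ℓ X (s.car X - s'.car X)) = g.bf ℓ h s X := by
  unfold bp Geo.bf
  split_ifs
  · rw [map_sub, map_sub, hf.1, Free.noB_car hf, sub_zero, sub_zero,
      pn_noB_eq a.sign a.l a.h a.b (hs.Kmem X) one_pos,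
      pn_noB_eq a.sign a.l a.h a.b (hs.car_mem X) one_pos]
  · rw [a.zero, add_zero]

/-- The size of the difference of the potentials. -/
theorem pn_H_sub {h β : ℝ} (a : Ad g ℓ h β) {s s' : g.St} (hs : g.Wf s) (hf : g.Free s')
    (X : Finset g.P) : g.pn ℓ h β X (s.H X - s'.H X) ≤ g.df ℓ h β s s' X + g.bf ℓ h s X := by
  rw [← bf_split a hs hf, Geo.df, show s.H X - s'.H X = (s.K X - s'.K X) + (s.car X - s'.car X) by
    rw [St.H, St.H]; abel]
  have h1 := a.add X (s.K X - s'.K X) (s.car X - s'.car X)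
  have h2 := a.add X (g.dp ℓ X (s.K X - s'.K X)) (bp g ℓ X (s.K X - s'.K X))
  have h3 := a.add X (g.dp ℓ X (s.car X - s'.car X)) (bp g ℓ X (s.car X - s'.car X))
  rw [dp_add_bp] at h2 h3
  linarith

theorem H_src_zero (X : Finset g.P) : (g.srcSt 0).H X = 0 := by
  simp [St.H, St.car, Geo.srcSt]

theorem bf_free {h β : ℝ} (a : Ad g ℓ h β) {s : g.St} (hs : g.Wf s) (hf : g.Free s)
    (X : Finset g.P) : g.bf ℓ h s X = 0 := by
  rw [← bf_split a hs hf, sub_self, sub_self]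
  unfold bp
  split_ifs
  · rw [map_zero, a.zero, add_zero]
  · rw [a.zero, add_zero]

theorem xtr_nd {U : Finset g.P} (hU : g.Xtr ℓ ℓ' U) (h5 : 5 * ℓ ≤ ℓ') (hM : 20 * ℓ + 1 ≤ g.M) :
    g.nd ℓ U :=
  ⟨fun x hx f hf => hU.2 x hx f (by have := hU.1; omega), by have := hU.1; omega⟩

theorem flux_neg {M : ℕ} {A : Gauge M} (hA : IsSign A) {f : Tor M} (h : flux A f ≠ 1) :
    flux A f = -1 :=
  (G.sign_mul (G.sign_mul (G.sign_mul (hA _) (hA _)) (hA _)) (hA _)).resolve_left h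

theorem exists_flux_of_not_flat {M : ℕ} {A : Gauge M} (hA : IsSign A) {x : Tor M} {r : ℕ}
    (h : ¬ Flat A x r) : ∃ f, tdist f x ≤ r ∧ flux A f = -1 := by
  by_contra hc
  exact h fun f hf => by_contra fun h1 => hc ⟨f, hf, flux_neg hA h1⟩

end alg

section anch

variable {M : ℕ} [NeZero M] {ℓ r : ℕ} {τ ε ε' : ℝ} {f f' : Finset (Tor M) → ℝ}

theorem anch_mono (h : Anch ℓ τ f ε) (hf : ∀ X, f' X ≤ f X) (hε : ε ≤ ε') : Anch ℓ τ f' ε' :=
  fun z => ((sum_le_sum fun X _ => mul_le_mul_of_nonneg_right (hf X) (Real.exp_pos _).le).trans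
    (h z)).trans hε

theorem anch_add (h : Anch ℓ τ f ε) (h' : Anch ℓ τ f' ε') :
    Anch ℓ τ (fun X => f X + f' X) (ε + ε') := fun z => by
  simp only [add_mul, sum_add_distrib]
  exact add_le_add (h z) (h' z)

/-- The sets that come within `r` of `z`. -/
def near (r : ℕ) (z : Tor M) : Finset (Finset (Tor M)) :=
  univ.filter fun X => ∃ x ∈ X, tdist x z ≤ r

theorem mem_near {z : Tor M} {X : Finset (Tor M)} : X ∈ near r z ↔ ∃ x ∈ X, tdist x z ≤ r := by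
  simp [near]

theorem sum_near (h1 : 1 ≤ ℓ) (h : ℓ ≤ r) (hf : ∀ X, 0 ≤ f X) (hA : Anch ℓ τ f ε) (z : Tor M) :
    ∑ X ∈ near r z, f X * Real.exp (τ * (stein X : ℝ) / ℓ) ≤ 50 * ((r : ℝ) / ℓ) ^ 2 * ε := by
  have h2 := Anch.touch h1 h hf hA {z}
  rw [stein_singleton, Nat.cast_zero, zero_div, add_zero, mul_one] at h2
  refine le_trans (le_of_eq (sum_congr ?_ fun _ _ => rfl)) h2
  ext X
  simp [near]

/-- A sum over the sets that contain a point is bounded by the anchored sum. -/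
theorem sum_mem_le (hτ : 0 ≤ τ) (hf : ∀ X, 0 ≤ f X) (hA : Anch ℓ τ f ε) (y : Tor M)
    (S : Finset (Finset (Tor M))) (hS : ∀ X ∈ S, y ∈ X) : ∑ X ∈ S, f X ≤ ε := by
  refine le_trans ?_ (hA y)
  refine le_trans (sum_le_sum fun X _ => le_mul_of_one_le_right (hf X)
    (Real.one_le_exp (by positivity))) (sum_le_sum_of_subset_of_nonneg (fun X hX => ?_)
      fun X _ _ => mul_nonneg (hf X) (Real.exp_pos _).le)
  exact mem_filter.2 ⟨mem_univ _, y, hS X hX, by rw [tdist_self]; exact Nat.zero_le _⟩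

theorem sum_fiber_le {α β : Type*} [Fintype α] [DecidableEq β] (T : Finset β) (S : Finset α)
    (t : α → β) (φ : α → ℝ) (hφ : ∀ a, 0 ≤ φ a) (h : ∀ a, t a ∈ T → a ∈ S) :
    ∑ X ∈ T, ∑ a ∈ univ.filter (fun a => t a = X), φ a ≤ ∑ a ∈ S, φ a := by
  rw [sum_fiberwise_eq_sum_filter]
  exact sum_le_sum_of_subset_of_nonneg (fun a ha => h a (mem_filter.1 ha).2) fun a _ _ => hφ a

theorem near_plus {z : Tor M} {U : Finset (Tor M)} (h : plus U ∈ near r z) : U ∈ near (r + 1) z := by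
  obtain ⟨y, hy, hyz⟩ := mem_near.1 h
  obtain ⟨x, hx, hxy⟩ := mem_biUnion.1 hy
  have h1 := G.tdist_star hxy
  have h2 := tdist_triangle x y z
  exact mem_near.2 ⟨x, hx, by omega⟩

theorem near_mono {r' : ℕ} (h : r ≤ r') (z : Tor M) : near r z ⊆ near r' z := fun _ hX => by
  obtain ⟨x, hx, h1⟩ := mem_near.1 hX
  exact mem_near.2 ⟨x, hx, h1.trans h⟩

theorem tdist_of_star_near {z x : Tor M} (h : star x ∈ near r z) : tdist x z ≤ r + 1 := by
  obtain ⟨y, hy, hyz⟩ := mem_near.1 h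
  have h1 := G.tdist_star hy
  have h2 := tdist_triangle x y z
  omega

end anch

end Vale.Agent.P144Z.R8
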