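import Vale.Agent.P144Z.R8.Core

/-!
# Defect steps: the general step and the last step
-/

namespace Vale.Agent.P144Z

open Finset Matrix Geo Filter Topology

namespace R8

variable {g : Geo}

/-- The sizes of the potentials. -/
theorem anch_H {ℓ : ℕ} {h β τ : ℝ} (a : Ad g ℓ h β) {s s' : g.St} (hs : g.Wf s) (hs' : g.Wf s')
    (hf : g.Free s') {D b e : ℝ} (hD : Anch ℓ τ (g.df ℓ h β s s') D) (hb : Anch ℓ τ (g.bf ℓ h s) b)
    (he : Anch ℓ τ (g.df ℓ h β s' (g.srcSt 0)) e) :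
    Anch ℓ τ (fun X => g.pn ℓ h β X (s.H X)) (D + b + e) ∧
      Anch ℓ τ (fun X => g.pn ℓ h β X (s'.H X)) (D + b + e) ∧
      Anch ℓ τ (fun X => g.pn ℓ h β X (s.H X - s'.H X)) (D + b) := by
  have h1 : Anch ℓ τ (fun X => g.pn ℓ h β X (s.H X - s'.H X)) (D + b) :=
    anch_mono (anch_add hD hb) (pn_H_sub a hs hf) le_rfl
  have h2 : Anch ℓ τ (fun X => g.pn ℓ h β X (s'.H X)) e := anch_mono he (fun X => by
    have h3 := pn_H_sub a hs' (wf_srcSt 0).2 X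
    rwa [H_src_zero, sub_zero, bf_free a hs' hf, add_zero] at h3) le_rfl
  have h3 := G.anch_nonneg (fun X => pn_nonneg _ _) h1
  refine ⟨anch_mono (anch_add h1 h2) (fun X => ?_) le_rfl, anch_mono h2 (fun _ => le_rfl)
    (by linarith), h1⟩
  have h4 := a.add X (s.H X - s'.H X) (s'.H X)
  rwa [sub_add_cancel] at h4

/-- One integration of the flow. -/
theorem cl_P : ∃ L₀ : ℕ, ∀ L ≥ L₀, ∃ C : ℝ, 1 ≤ C ∧ ∀ (g : Geo) (ℓ : ℕ) (h β : ℝ), Ad g ℓ h β →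
    8 ≤ ℓ → (L : ℝ) ^ 2 ≤ h →
    (∀ U, ∀ F ∈ g.sub U,
      g.pn ℓ (h / 2) β U (evG (g.exM (covP (Dm g.A) ℓ (L * ℓ))) F) ≤ g.pn ℓ h β U F) ∧
    ∀ s s' : g.St, g.Wf s → g.Wf s' → g.Free s' → ∀ D b e : ℝ, C * (D + b + e) ≤ 1 →
      Anch ℓ L (g.df ℓ h β s s') D → Anch ℓ L (g.bf ℓ h s) b →
      Anch ℓ L (g.df ℓ h β s' (g.srcSt 0)) e →
      g.ExpId (covP (Dm g.A) ℓ (L * ℓ)) s ∧
      Anch (L * ℓ) (2 * L) (fun U => g.pn ℓ (h / 2) β U (NL g (covP (Dm g.A) ℓ (L * ℓ)) s s' U))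
        (C * (D + b + e) * (D + b)) ∧
      Anch (L * ℓ) (2 * L) (fun U => g.pn ℓ (h / 2) β U
        (g.intg ℓ (L * ℓ) s U - g.intg ℓ (L * ℓ) s' U)) (C * (D + b)) := by
  obtain ⟨Cg, hCg, hgram⟩ := gram_covP
  refine ⟨⌈4 * Cg⌉₊, fun L hL => ?_⟩
  have hL1 : 4 * Cg ≤ L := Nat.ceil_le.1 hL
  have hL4 : 4 ≤ L := by
    have : (4 : ℝ) ≤ L := by linarith
    exact_mod_cast this
  obtain ⟨C, hC, H⟩ := step_cl L (by linarith) L
  refine ⟨C, hC, fun g ℓ h β a hl hh => ?_⟩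
  have h4 : 4 * ℓ ≤ L * ℓ := Nat.mul_le_mul_right ℓ hL4
  have hl0 : (ℓ : ℝ) ≠ 0 := by positivity
  have hc : Cg * ((L * ℓ : ℕ) : ℝ) / ℓ = Cg * L := by push_cast; field_simp
  obtain ⟨h1, h2⟩ := H g a.sign ℓ (L * ℓ) a.l h4 le_rfl (covP (Dm g.A) ℓ (L * ℓ))
    (cov_anti a.sign _ _) (fun s s' hs => covP_range g.A (by omega) (by omega) hs) _ h β
    (hgram _ _ (isD_Dm a.sign) ℓ (L * ℓ) hl (by omega)) (by positivity)
    (by rw [hc]; nlinarith) a.h a.b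
  refine ⟨h1, fun s s' hs hs' hf D b e hε hD hb he => ?_⟩
  obtain ⟨a1, a2, a3⟩ := anch_H a hs hs' hf hD hb he
  exact h2 s.H s'.H hs.H_empty hs'.H_empty hs.H_mem hs'.H_mem _ _ hε a1 a2 a3

theorem ev_exp (c : ℝ) : ∀ᶠ L : ℕ in atTop, c * (L : ℝ) ^ 3 * Real.exp (2 - L) ≤ 1 / 8 := by
  have h1 := ((Real.tendsto_pow_mul_exp_neg_atTop_nhds_zero 3).comp
    tendsto_natCast_atTop_atTop).const_mul (c * Real.exp 2)
  rw [mul_zero] at h1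
  filter_upwards [h1.eventually_le_const (by norm_num : (0 : ℝ) < 1 / 8)] with L hL
  refine le_trans (le_of_eq ?_) hL
  rw [sub_eq_add_neg, Real.exp_add, Function.comp_apply]
  ring

theorem finish {a A l c ε D b C : ℝ} (ha : a ≤ 1 / 4) (hA : A * c * ε ≤ 1 / 4) (hC : A * l + 1 ≤ C)
    (hD : 0 ≤ D) (hb : 0 ≤ b) : a * D + A * (l * b + c * ε * (D + b)) ≤ D / 2 + C * b := by
  have h1 := mul_le_mul_of_nonneg_right ha hD
  have h2 := mul_le_mul_of_nonneg_right hA (add_nonneg hD hb)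
  have h3 := mul_le_mul_of_nonneg_right hC hb
  linarith

/-- The crude bound of the extracted quadratic term. -/
theorem ext_le : ∃ C : ℝ, 1 ≤ C ∧ ∀ (g : Geo) (L ℓ : ℕ) (h β h' β' : ℝ), Ad g ℓ h β →
    Ad g (L * ℓ) h' β' → 6 ≤ L → 8 ≤ ℓ → 16 * (L * ℓ) ≤ g.M → h' ≤ 2 * h →
    ∀ U, g.Xtr ℓ (L * ℓ) U → ∀ x ∈ U, ∀ F ∈ g.sub U,
      g.pn (L * ℓ) h' β' (star x) (g.Ext x F) ≤ 16 * C * g.pn ℓ (h / 2) β U F ∧
      ∀ k, (g.src k).y = x → β * (h / 2) ^ 2 * |g.zt k F| ≤ C * ℓ * g.pn ℓ (h / 2) β U F := by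
  obtain ⟨C, hC, H⟩ := pn_extract
  refine ⟨C, hC, fun g L ℓ h β h' β' a a' hL hl hM hh U hU x hx F hF => ?_⟩
  have h6 : 6 * ℓ ≤ L * ℓ := Nat.mul_le_mul_right ℓ hL
  obtain ⟨-, -, h1, h2⟩ := H g a.sign ℓ (h / 2) β hl (by omega) a.half.h a.b U x hx hU.1
    (fun f hf => hU.2 x hx f (by omega)) F hF
  refine ⟨(h2 (L * ℓ) h' β' (by omega) (by omega) (hU.2 x hx) a'.h a'.b).trans
    (mul_le_mul_of_nonneg_right ?_ (pn_nonneg _ _)), h1⟩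
  have h3 : h' / (h / 2) ≤ 4 := by rw [div_le_iff₀ a.half.h]; linarith
  have h4 := pow_le_pow_left₀ (div_nonneg a'.h.le a.half.h.le) h3 2
  nlinarith

theorem xb_of_off {j ℓ ℓ' : ℕ} (hJ : ∀ k, (g.src k).on = true → g.J ≤ j) (U : Finset g.P)
    (F : g.E) : xb g j ℓ ℓ' U F = 0 := by
  classical
  exact sum_eq_zero fun k hk =>
    absurd (mem_filter.1 hk).2.2.2.2 (not_lt.2 (hJ k (mem_filter.1 hk).2.2.2.1))

theorem step_z_of_off {j ℓ ℓ' : ℕ} (hJ : ∀ k, (g.src k).on = true → g.J ≤ j) (s : g.St)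
    (k : g.K) : (g.step j ℓ ℓ' 0 s).z k = s.z k := by
  classical
  simp only [Geo.step]
  rw [sum_eq_zero fun U hU =>
    absurd (mem_filter.1 hU).2.2.2.2 (not_lt.2 (hJ k (mem_filter.1 hU).2.2.2.1)), add_zero]

end R8

open R8

namespace Geo

/-- The step without renormalisation of the sources. -/
theorem step_gen : ∃ C₀ : ℝ, 1 ≤ C₀ ∧ ∃ L₀ : ℕ, ∀ L ≥ L₀, ∃ C : ℝ, 1 ≤ C ∧ ∀ g : Geo, IsSign g.A →
    ∀ j ℓ : ℕ, (∀ k, (g.src k).on = true → g.J ≤ j) → 8 ≤ ℓ → 16 * (L * ℓ) ≤ g.M →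
    ∀ N : ℕ, 1 ≤ N → g.Cov N ℓ → ∀ κ ρ h h' β : ℝ, 0 ≤ κ → (∀ z, g.Sch ℓ (L * ℓ) κ z) →
    (L : ℝ) ^ 2 ≤ h → 0 < h' → h' ≤ 2 * h → 0 < ρ → h' * κ ≤ ρ * h → C₀ * N * ρ ^ 2 ≤ 1 → 0 < β →
    ∀ s s' : g.St, g.Wf s → g.Wf s' → g.Free s' → ∀ D b e : ℝ, C * D ≤ 1 → C * b ≤ 1 → C * e ≤ 1 →
    Anch ℓ L (g.df ℓ h β s s') D → Anch ℓ L (g.bf ℓ h s) b →
    Anch ℓ L (g.df ℓ h β s' (g.srcSt 0)) e →
      g.ExpId (covP (Dm g.A) ℓ (L * ℓ)) s ∧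
      Anch (L * ℓ) L (g.df (L * ℓ) h' β (g.step j ℓ (L * ℓ) 0 s) (g.step j ℓ (L * ℓ) 0 s'))
        (D / 2 + C * b) ∧
      Anch (L * ℓ) (2 * L) (fun U => g.pn ℓ (h / 2) β U
        (g.intg ℓ (L * ℓ) s U - g.intg ℓ (L * ℓ) s' U)) (C * (D + b)) := by
  obtain ⟨L₁, hP⟩ := cl_P
  obtain ⟨Cx, hCx, hX⟩ := ext_le
  obtain ⟨L₂, hL₂⟩ := eventually_atTop.1 (ev_exp 800)
  have he6 : 1 ≤ Real.exp 6 := Real.one_le_exp (by norm_num)
  refine ⟨676 * 64 * Real.exp 6, by linarith, max (max L₁ L₂) 6, fun L hL => ?_⟩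
  obtain ⟨Cc, hCc, hP⟩ := hP L (le_of_max_le_left (le_of_max_le_left hL))
  have hE := hL₂ L (le_of_max_le_right (le_of_max_le_left hL))
  have hL6 : 6 ≤ L := le_of_max_le_right hL
  have hL6' : (6 : ℝ) ≤ L := by exact_mod_cast hL6
  set A := 1200 * Real.exp 6 * (1 + 3 * (16 * Cx)) with hA
  have hA0 : 0 ≤ A := by positivity
  have hAC : 0 ≤ A * Cc := by positivity
  have hAL : 0 ≤ A * L ^ 2 := by positivity
  refine ⟨12 * (A * Cc) + A * L ^ 2 + 3 * Cc + 1, by linarith, fun g hA' j ℓ hJ hl hM N hN hcov κ ρ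
    h h' β hκ hsch hh hh' hh2 hρ hρκ hρN hβ s s' hs hs' hf D b e hD hb he aD ab ae => ?_⟩
  have a : Ad g ℓ h β := ⟨hA', by omega, by nlinarith, hβ⟩
  have hl' : ℓ ≤ L * ℓ := Nat.le_mul_of_pos_left ℓ (by omega)
  have a' : Ad g (L * ℓ) h' β := ⟨hA', by omega, hh', hβ⟩
  have hD0 := G.anch_nonneg (df_nonneg s s') aD
  have hb0 := G.anch_nonneg (bf_nonneg s) ab
  have he0 := G.anch_nonneg (df_nonneg _ _) ae
  have hε0 : 0 ≤ D + b + e := by linarith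
  have hε : (12 * (A * Cc) + A * L ^ 2 + 3 * Cc + 1) * (D + b + e) ≤ 3 := by linarith
  obtain ⟨hE', hP⟩ := hP g ℓ h β a hl hh
  obtain ⟨c1, c2, c3⟩ := hP s s' hs hs' hf D b e (by nlinarith) aD ab ae
  have hN1 : (1 : ℝ) ≤ N := by exact_mod_cast hN
  have hρ2 : 676 * 64 * Real.exp 6 * ρ ^ 2 ≤ 1 := by
    refine le_trans ?_ hρN
    rw [mul_assoc _ (N : ℝ)]
    exact mul_le_mul_of_nonneg_left (le_mul_of_one_le_left (sq_nonneg _) hN1) (by positivity)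
  have hρ4 : 2 * ρ ≤ 1 / 2 := by nlinarith
  have hsch2 : ∀ U, ∀ F ∈ g.sub U, _ := fun U F hF =>
    pn_sch hA' a.l a.half.h hβ hF hκ hl' hh' (fun z _ => hsch z) (ρ := 2 * ρ) (by linarith)
      (by linarith)
  have H : Hyp g L ℓ j h β h' β 1 (8 * ρ ^ 2) (16 * Cx) s s' (g.step j ℓ (L * ℓ) 0 s') :=
    { a := a, a' := a', hL := hL6, hl := hl, hM := hM, hs := hs, hs' := hs', hf := hf
      tK := fun _ => rfl
      tv := (Free.step hs' hf j ℓ (L * ℓ)).2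
      tz := fun k => by rw [step_z_of_off hJ, step_z_of_off hJ]
      kc0 := zero_le_one
      ks0 := by positivity
      ke0 := by positivity
      hE := hE'
      T1 := fun U F hF => ((hsch2 U F hF).1 (by linarith)).trans (by
        rw [one_mul]
        exact le_mul_of_one_le_left (pn_nonneg _ _) (Real.one_le_exp (by positivity)))
      T2 := fun U _ F hF h0 _ => by
        rw [xb_of_off hJ, sub_zero]
        refine ((a'.mono (G.subset_plus U) hF).trans ((hsch2 U F hF).2 hρ4 h0)).trans (le_of_eq ?_)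
        ring
      T3 := fun X _ => by
        have hF := dp_mem (ℓ := ℓ) (sub_mem (hs.car_mem X) (hs'.car_mem X)) X
        refine ((pn_sch hA' a.l a.h hβ hF hκ hl' hh' (fun z _ => hsch z) hρ hρκ).2 (by linarith)
          (noF_dp (by rw [map_sub, hs.noF_car, hs'.noF_car, sub_self]))).trans
          (mul_le_mul_of_nonneg_right (by nlinarith) (pn_nonneg _ _))
      T4 := fun U hU x hx F hF => (hX g L ℓ h β h' β a a' hL6 hl hM hh2 U hU x hx F hF).1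
      T5 := fun U F _ => by
        rw [xb_of_off hJ, a'.zero]
        exact mul_nonneg (by positivity) (pn_nonneg _ _) }
  obtain ⟨Z, hZ, hZ1, hZ2⟩ := hcov
  refine ⟨c1, anch_mono (H.core (N := N) (fun _ => ⟨Z, hZ, fun f hf _ => hZ1 f hf,
    fun k _ => hZ2 k⟩) aD ab c2) (fun _ => le_rfl) ?_, anch_mono c3 (fun _ => le_rfl)
    (mul_le_mul_of_nonneg_right (by linarith) (by linarith))⟩
  refine finish ?_ (by nlinarith) (by linarith) hD0 hb0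
  have h1 : 800 * 1 * (L : ℝ) ^ 2 * Real.exp (2 - L) ≤ 800 * (L : ℝ) ^ 3 * Real.exp (2 - L) :=
    mul_le_mul_of_nonneg_right (by nlinarith) (Real.exp_pos _).le
  linarith

end Geo

end Vale.Agent.P144Z
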