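import Vale.Agent.P144Z.R1.Main
import Vale.Agent.P144Z.R3.Main
import Vale.Agent.P144Z.R3W.Main
import Vale.Agent.P144Z.RN.Exp
import Vale.Agent.P144Z.B4.Main
import Vale.Agent.P144Z.A2.Main
import Vale.Agent.P144Z.G.Main

/-!
The last step of the flow and the change of the comparison state.
-/

namespace Vale.Agent.P144Z

open Finset Matrix

namespace R8L

variable {g : Geo} {ℓ : ℕ} {h β : ℝ}

theorem dp_add (ℓ : ℕ) (X : Finset g.P) (F G : g.E) :
    g.dp ℓ X (F + G) = g.dp ℓ X F + g.dp ℓ X G := by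
  unfold Geo.dp
  split_ifs
  · rw [map_add]
    abel
  · rfl

theorem dp_of_noB (ℓ : ℕ) (X : Finset g.P) {F : g.E} (hF : g.noB F = 0) : g.dp ℓ X F = F := by
  unfold Geo.dp
  split_ifs
  · rw [hF, sub_zero]
  · rfl

theorem noB_car {s : g.St} (hf : g.Free s) (X : Finset g.P) : g.noB (s.car X) = 0 := by
  unfold Geo.St.car
  simp only [hf.2, Finset.sum_const_zero, zero_add, map_sum, map_smul, Geo.noB_bE, smul_zero]

theorem srcSt_zero_K (X : Finset g.P) : (g.srcSt 0).K X = 0 := rfl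

theorem srcSt_zero_car (X : Finset g.P) : (g.srcSt 0).car X = 0 := by
  simp [Geo.St.car, Geo.srcSt]

theorem df_nonneg (s s' : g.St) (X : Finset g.P) : 0 ≤ g.df ℓ h β s s' X :=
  add_nonneg (RN.pn_nonneg _) (RN.pn_nonneg _)

theorem bf_nonneg (s : g.St) (X : Finset g.P) : 0 ≤ g.bf ℓ h s X := by
  unfold Geo.bf
  split_ifs
  · exact add_nonneg (RN.pn_nonneg _) (RN.pn_nonneg _)
  · exact le_rfl

open Classical in
theorem pn_le_dp (hℓ : 1 ≤ ℓ) (hh : 0 < h) (hβ : 0 < β) {X : Finset g.P} {F F' : g.E}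
    (hF : F ∈ g.sub X) (h0 : g.noB F' = 0) : g.pn ℓ h β X (F - F') ≤
      g.pn ℓ h β X (g.dp ℓ X (F - F')) + if g.nd ℓ X then g.pn ℓ h 1 X (g.noB F) else 0 := by
  unfold Geo.dp
  split_ifs
  · have e : F - F' = F - F' - g.noB (F - F') + g.noB (g.noB F) := by
      rw [Geo.noB_noB, map_sub, h0, sub_zero, sub_add_cancel]
    refine (congrArg _ e).trans_le ((RN.pn_add hℓ hh hβ _ _).trans (add_le_add le_rfl ?_))
    exact RN.pn_noB hℓ hh one_pos hβ (RN.noB_mem hF)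
  · rw [add_zero]

/-- The difference of the potentials is bounded by the defect size and the bulk size. -/
theorem pn_H_sub (hℓ : 1 ≤ ℓ) (hh : 0 < h) (hβ : 0 < β) {s s' : g.St} (hs : g.Wf s)
    (hf : g.Free s') (X : Finset g.P) :
    g.pn ℓ h β X (s.H X - s'.H X) ≤ g.df ℓ h β s s' X + g.bf ℓ h s X := by
  have e : s.H X - s'.H X = (s.K X - s'.K X) + (s.car X - s'.car X) := by
    unfold Geo.St.H
    abel
  have h1 := pn_le_dp hℓ hh hβ (hs.Kmem X) (hf.1 X)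
  have h2 := pn_le_dp hℓ hh hβ (hs.car_mem X) (noB_car hf X)
  rw [e]
  refine (RN.pn_add hℓ hh hβ _ _).trans ?_
  unfold Geo.df Geo.bf
  split_ifs at h1 h2 ⊢ <;> linarith

/-- The potential of a free state is bounded by its defect size. -/
theorem pn_H_free (hℓ : 1 ≤ ℓ) (hh : 0 < h) (hβ : 0 < β) {s' : g.St} (hf : g.Free s')
    (X : Finset g.P) : g.pn ℓ h β X (s'.H X) ≤ g.df ℓ h β s' (g.srcSt 0) X := by
  unfold Geo.df
  rw [srcSt_zero_K, srcSt_zero_car, sub_zero, sub_zero, dp_of_noB _ _ (hf.1 X),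
    dp_of_noB _ _ (noB_car hf X)]
  exact RN.pn_add hℓ hh hβ _ _

section Anch

variable {M : ℕ} [NeZero M] {τ : ℝ}

theorem anch_mono {f f' : Finset (Tor M) → ℝ} {ε ε' : ℝ} (hA : Anch ℓ τ f ε)
    (hf : ∀ X, f' X ≤ f X) (hε : ε ≤ ε') : Anch ℓ τ f' ε' := fun z =>
  (Finset.sum_le_sum fun X _ =>
    mul_le_mul_of_nonneg_right (hf X) (Real.exp_pos _).le).trans ((hA z).trans hε)

theorem anch_add {f f' : Finset (Tor M) → ℝ} {ε ε' : ℝ} (hA : Anch ℓ τ f ε)
    (hA' : Anch ℓ τ f' ε') : Anch ℓ τ (fun X => f X + f' X) (ε + ε') := fun z => by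
  simp only [add_mul, Finset.sum_add_distrib]
  exact add_le_add (hA z) (hA' z)

/-- The sum over all nonempty sets. -/
theorem sum_all {L : ℕ} (hℓ : 1 ≤ ℓ) (hM : M ≤ 16 * (L * ℓ)) (hτ : 0 ≤ τ)
    {f : Finset (Tor M) → ℝ} (hf : ∀ X, 0 ≤ f X) {ε : ℝ} (hA : Anch ℓ τ f ε) :
    ∑ X ∈ univ.filter (fun X : Finset (Tor M) => X.Nonempty), f X ≤ (32 * L + 1) ^ 2 * ε := by
  obtain ⟨Z, hZ, -, hc⟩ := cover_ball (0 : Tor M) M hℓ
  have h1 := G.anch_cover' (t := 0) hf hA (univ.filter fun X : Finset (Tor M) => X.Nonempty) Z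
    (fun X hX => by
      obtain ⟨x, hx⟩ := (mem_filter.1 hX).2
      obtain ⟨z, hz, hd⟩ := hc x (by have := tdist_le x 0; omega)
      exact ⟨x, hx, z, hz, hd⟩) fun X _ => by positivity
  rw [neg_zero, Real.exp_zero, mul_one] at h1
  refine h1.trans (mul_le_mul_of_nonneg_right (hZ.trans ?_) (G.anch_nonneg hf hA))
  have h0 : (0 : ℝ) < ℓ := by exact_mod_cast hℓ
  have h2 : (M : ℝ) ≤ 16 * (L * ℓ) := by exact_mod_cast hM
  have h3 : 2 * (M : ℝ) / ℓ ≤ 32 * L := by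
    rw [div_le_iff₀ h0]
    linarith
  gcongr

omit [NeZero M] in
theorem touch_all {X Y : Finset (Tor M)} :
    (RN.szAll (Tor M)).touch X Y ↔ X.Nonempty ∧ Y.Nonempty :=
  ⟨fun ⟨x, hx, y, hy, _⟩ => ⟨⟨x, hx⟩, ⟨y, hy⟩⟩,
    fun ⟨⟨x, hx⟩, ⟨y, hy⟩⟩ => ⟨x, hx, y, hy, trivial⟩⟩

theorem le_all {f : Finset (Tor M) → ℝ} (hf : ∀ X, 0 ≤ f X) {ε t : ℝ}
    (h : ∑ X ∈ univ.filter (fun X : Finset (Tor M) => X.Nonempty), f X ≤ ε) :
    (RN.szAll (Tor M)).Le t f (Real.exp t * ε) := by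
  classical
  intro Y
  show ∑ X ∈ _, f X * Real.exp (t * 1) ≤ Real.exp t * ε * 1
  rw [mul_one, mul_one, ← Finset.sum_mul, mul_comm]
  refine mul_le_mul_of_nonneg_left (le_trans ?_ h) (Real.exp_pos _).le
  refine Finset.sum_le_sum_of_subset_of_nonneg (fun X hX => ?_) fun X _ _ => hf X
  exact mem_filter.2 ⟨mem_univ _, (touch_all.1 (mem_filter.1 hX).2).1⟩

theorem all_le {f : Finset (Tor M) → ℝ} {ε : ℝ} (h : (RN.szAll (Tor M)).Le 0 f ε) :
    ∑ X ∈ univ.filter (fun X : Finset (Tor M) => X.Nonempty), f X ≤ ε := by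
  classical
  have h1 := h univ
  have e : ∀ X : Finset (Tor M), (RN.szAll (Tor M)).touch X univ ↔ X.Nonempty := fun X =>
    touch_all.trans (and_iff_left univ_nonempty)
  simp only [e, zero_mul, Real.exp_zero, mul_one] at h1
  exact h1.trans_eq (mul_one ε)

end Anch

end R8L

namespace Geo

open R8L

/-- The last step. -/
theorem step_last (C₀ : ℝ) : ∃ L₀ : ℕ, ∀ L ≥ L₀, ∃ C : ℝ, 1 ≤ C ∧ ∀ g : Geo, IsSign g.A →
    ∀ ℓ : ℕ, 8 ≤ ℓ → ℓ ≤ g.M → g.M ≤ 16 * (L * ℓ) → (∀ v, (Dm g.A *ᵥ v) ⬝ᵥ (Dm g.A *ᵥ v) ≤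
      (C₀ * g.M) ^ 2 * (((Dm g.A * Dm g.A) *ᵥ v) ⬝ᵥ ((Dm g.A * Dm g.A) *ᵥ v))) →
    ∀ h β : ℝ, (L : ℝ) ^ 2 ≤ h → 0 < β →
    ∀ s s' : g.St, g.Wf s → g.Wf s' → g.Free s' → ∀ D b e : ℝ, C * D ≤ 1 → C * b ≤ 1 → C * e ≤ 1 →
    Anch ℓ L (g.df ℓ h β s s') D → Anch ℓ L (g.bf ℓ h s) b →
    Anch ℓ L (g.df ℓ h β s' (g.srcSt 0)) e →
      g.ExpId (covL (Dm g.A) ℓ) s ∧
      ∑ U, g.pn ℓ (h / 2) β U (Cl (evG (g.exM (covL (Dm g.A) ℓ))) s.H U -
        Cl (evG (g.exM (covL (Dm g.A) ℓ))) s'.H U) ≤ C * (D + b) := by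
  classical
  obtain ⟨C₁, hC₁, hE⟩ := RN.isExp_covL
  set c : ℝ := |C₀| + 1 with hc
  have hc1 : 1 ≤ c := le_add_of_nonneg_left (abs_nonneg _)
  refine ⟨⌈16 * C₁ * c⌉₊ + 1, fun L hL => ?_⟩
  have hL1 : (1 : ℝ) ≤ L := by exact_mod_cast (by omega : 1 ≤ L)
  have hL2 : 16 * C₁ * c ≤ L :=
    (Nat.le_ceil _).trans (by exact_mod_cast (by omega : ⌈16 * C₁ * c⌉₊ ≤ L))
  set A : ℝ := (32 * L + 1) ^ 2 with hA
  set E : ℝ := Real.exp (0 + 0 + 2) with hEdef
  have hA1 : 1 ≤ A := one_le_pow₀ (by linarith)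
  have hE1 : 1 ≤ E := Real.one_le_exp (by norm_num)
  have hEA : 1 ≤ E * A := one_le_mul_of_one_le_of_one_le hE1 hA1
  refine ⟨144 * (E * A), by linarith, fun g hS ℓ h8 hℓM hM hD h β hh hβ s s' hs hs' hf D b e
    hCD hCb hCe aD ab ae => ?_⟩
  have hℓ : 1 ≤ ℓ := by omega
  have hℓ0 : (0 : ℝ) < ℓ := by exact_mod_cast hℓ
  have hh0 : 0 < h := lt_of_lt_of_le (by positivity) hh
  have hM0 : (ℓ : ℝ) ≤ g.M := by exact_mod_cast hℓM
  have hM1 : (g.M : ℝ) ≤ 16 * (L * ℓ) := by exact_mod_cast hM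
  have hI := hE g hS ℓ h8 (c * g.M) (hM0.trans (le_mul_of_one_le_left (by positivity) hc1))
    (fun v => (hD v).trans (mul_le_mul_of_nonneg_right (by
      rw [mul_pow, mul_pow, ← sq_abs C₀]
      gcongr
      exact le_add_of_nonneg_right zero_le_one)
      (Finset.sum_nonneg fun _ _ => mul_self_nonneg _))) h β hh0 hβ (by
      refine le_trans ?_ hh
      rw [div_le_iff₀ hℓ0]
      have h1 : C₁ * (c * g.M) ≤ C₁ * (c * (16 * (L * ℓ))) := by gcongr
      have h2 : 16 * C₁ * c * (L * ℓ) ≤ L * (L * ℓ) := by gcongr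
      nlinarith)
  have hL0 : (0 : ℝ) ≤ L := by positivity
  have D0 := G.anch_nonneg (df_nonneg s s') aD
  have b0 := G.anch_nonneg (bf_nonneg s) ab
  have e0 := G.anch_nonneg (df_nonneg s' _) ae
  have a1 : Anch ℓ L (fun X => g.pn ℓ h β X (s.H X - s'.H X)) (D + b) :=
    anch_mono (anch_add aD ab) (pn_H_sub hℓ hh0 hβ hs hf) le_rfl
  have a2 : Anch ℓ L (fun X => g.pn ℓ h β X (s'.H X)) e :=
    anch_mono ae (pn_H_free hℓ hh0 hβ hf) le_rfl
  have a3 : Anch ℓ L (fun X => g.pn ℓ h β X (s.H X)) (D + b + e) :=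
    anch_mono (anch_add a1 a2) (fun X => (congrArg _ (sub_add_cancel _ _).symm).trans_le
      (RN.pn_add hℓ hh0 hβ _ _)) le_rfl
  have s1 := sum_all hℓ hM hL0 (fun X => RN.pn_nonneg _) a1
  have s2 := sum_all hℓ hM hL0 (fun X => RN.pn_nonneg _)
    (anch_mono a2 (fun _ => le_rfl) (by linarith : e ≤ D + b + e))
  have s3 := sum_all hℓ hM hL0 (fun X => RN.pn_nonneg _) a3
  have hε : E * (A * (D + b + e)) ≤ 1 / 48 := by nlinarith
  have l1 := le_all (t := 0 + 0 + 2) (fun X => RN.pn_nonneg _) s1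
  have l2 := le_all (t := 0 + 0 + 2) (fun X => RN.pn_nonneg _) s2
  have l3 := le_all (t := 0 + 0 + 2) (fun X => RN.pn_nonneg _) s3
  obtain ⟨z1, -, -, hid⟩ := cl_main exp_ev_injective _ _ _ le_rfl le_rfl hI hs.H_empty hs.H_mem
    (hε.trans (by norm_num)) l3
  obtain ⟨z2, -, -, -⟩ := cl_main exp_ev_injective _ _ _ le_rfl le_rfl hI hs'.H_empty hs'.H_mem
    (hε.trans (by norm_num)) l2
  have hr := all_le (cl_rem exp_ev_injective _ _ _ le_rfl le_rfl hI hs.H_empty hs'.H_empty hs.H_mem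
    hs'.H_mem hε l3 l2 l1)
  refine ⟨by simpa only [Finset.powerset_univ, ExpId] using hid univ, ?_⟩
  have hh2 := half_pos hh0
  rw [← Finset.sum_subset (Finset.filter_subset (fun X : Finset g.P => X.Nonempty) univ)
    fun U _ hU => ?_]
  · refine le_trans (Finset.sum_le_sum fun U _ => ?_)
      ((Finset.sum_add_distrib.le.trans (add_le_add hr s1)).trans ?_)
    · have h1 := hI.le ((g.sub U).sub_mem (hs.H_mem U) (hs'.H_mem U))
      rw [zero_mul, Real.exp_zero, one_mul] at h1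
      refine le_trans (le_of_eq (congrArg _ ?_)) ((RN.pn_add hℓ hh2 hβ _ _).trans
        (add_le_add le_rfl h1))
      rw [map_sub]
      abel
    · have h1 : 0 ≤ A * (D + b) := by positivity
      have h2 : A * (D + b) ≤ E * (A * (D + b)) := le_mul_of_one_le_left h1 hE1
      have h3 : 0 ≤ E * (A * (D + b)) := h1.trans h2
      have h4 := mul_le_mul_of_nonneg_right hε h3
      show 1000 * (E * (A * (D + b + e))) * (E * (A * (D + b))) + A * (D + b) ≤ _
      nlinarith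
  · obtain rfl : U = ∅ := by simpa using hU
    rw [z1, z2, sub_zero, RN.pn_zero hℓ hh2 hβ]

/-- Change of the coefficients of the comparison state. -/
theorem df_srcSt : ∃ C : ℝ, 1 ≤ C ∧ ∀ L : ℕ, ∀ g : Geo, IsSign g.A → ∀ ℓ : ℕ, 8 ≤ ℓ → 4 * ℓ ≤ g.M →
    g.Sep (4 * ℓ) → ∀ h δ : ℝ, 0 < h → 0 < δ → ∀ s : g.St, g.Wf s → ∀ (z z' : g.K → ℝ) (a D : ℝ),
    0 ≤ a → (∀ k, |z k - z' k| ≤ a) → Anch ℓ L (g.df ℓ h (δ * ℓ / h ^ 2) s (g.srcSt z)) D →
      Anch ℓ L (g.df ℓ h (δ * ℓ / h ^ 2) s (g.srcSt z')) (D + C * Real.exp L * δ * a) := by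
  classical
  obtain ⟨C, hC, hloc⟩ := pn_local
  refine ⟨C, hC, fun L g hS ℓ h8 hM hsep h δ hh hδ s hs z z' a D ha hz aD => ?_⟩
  have hℓ : 1 ≤ ℓ := by omega
  have hℓ0 : (0 : ℝ) < ℓ := by exact_mod_cast hℓ
  have hβ : 0 < δ * ℓ / h ^ 2 := by positivity
  have hbE : ∀ k, g.pn ℓ h (δ * ℓ / h ^ 2) (star (g.src k).y) (g.bE k) ≤ C * δ := by
    intro k
    have hF : Flat g.A (g.src k).y ℓ := fun f hf => by
      have h1 : flux g.A f ≠ -1 := fun h2 => by
        have := hsep.fs f k h2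
        omega
      unfold flux at h1 ⊢
      rcases hS (f, 0) with a | a <;> rcases hS (f + uv g.M 0, 1) with b | b <;>
        rcases hS (f + uv g.M 1, 0) with c | c <;> rcases hS (f, 1) with d | d <;>
        rw [a, b, c, d] at h1 ⊢ <;> first | (norm_num at h1; done) | norm_num
    refine ((hloc g hS ℓ h _ h8 hM hh hβ _ hF).2.2.2 k rfl).trans_eq ?_
    field_simp
  have hdf : ∀ X, g.df ℓ h (δ * ℓ / h ^ 2) s (g.srcSt z') X ≤
      g.df ℓ h (δ * ℓ / h ^ 2) s (g.srcSt z) X +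
        ∑ k ∈ univ.filter (fun k => star (g.src k).y = X), C * δ * a := by
    intro X
    have e : s.car X - (g.srcSt z').car X = (s.car X - (g.srcSt z).car X) +
        ∑ k ∈ univ.filter (fun k => star (g.src k).y = X), (z k - z' k) • g.bE k := by
      simp only [St.car, srcSt, Pi.zero_apply, Finset.sum_const_zero, zero_add, sub_smul,
        Finset.sum_sub_distrib]
      abel
    unfold df
    rw [e, dp_add, dp_of_noB _ _ (F := ∑ k ∈ _, _) (by simp [map_sum, noB_bE]), add_assoc]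
    refine add_le_add le_rfl ((RN.pn_add hℓ hh hβ _ _).trans (add_le_add le_rfl
      ((RN.pn_sum hℓ hh hβ _ _).trans (Finset.sum_le_sum fun k hk => ?_))))
    rw [RN.pn_smul hℓ hh hβ, ← (mem_filter.1 hk).2, mul_comm]
    exact mul_le_mul (hbE k) (hz k) (abs_nonneg _) (by positivity)
  refine anch_mono (anch_add aD (ε' := C * Real.exp L * δ * a) fun x => ?_) hdf le_rfl
  have hK : (univ.filter fun k => tdist (g.src k).y x ≤ ℓ + 1).card ≤ 1 := by
    refine Finset.card_le_one.2 fun k hk k' hk' => ?_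
    by_contra hne
    have h1 := hsep.ss k k' hne
    have h2 := tdist_triangle (g.src k).y x (g.src k').y
    have h3 := (mem_filter.1 hk).2
    have h4 := (mem_filter.1 hk').2
    rw [tdist_comm x] at h2
    omega
  have hw : 0 ≤ C * Real.exp L * δ * a := by positivity
  calc _ ≤ ∑ X ∈ univ.filter (fun X : Finset g.P => ∃ y ∈ X, tdist y x ≤ ℓ),
        ∑ k ∈ (univ.filter fun k => tdist (g.src k).y x ≤ ℓ + 1).filter
          (fun k => star (g.src k).y = X), C * Real.exp L * δ * a := by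
        refine Finset.sum_le_sum fun X hX => ?_
        obtain ⟨y, hy, hyx⟩ := (mem_filter.1 hX).2
        rw [Finset.sum_mul]
        refine (Finset.sum_le_sum fun k hk => ?_).trans
          (Finset.sum_le_sum_of_subset_of_nonneg (fun k hk => ?_) fun _ _ _ => hw)
        · have h1 : (stein X : ℝ) ≤ ℓ := by
            rw [← (mem_filter.1 hk).2]
            exact_mod_cast (stein_star _).trans (by omega)
          have h2 : Real.exp (L * (stein X : ℝ) / ℓ) ≤ Real.exp L := by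
            refine Real.exp_le_exp.2 ?_
            rw [div_le_iff₀ hℓ0]
            gcongr
          calc C * δ * a * Real.exp (L * (stein X : ℝ) / ℓ) ≤ C * δ * a * Real.exp L := by gcongr
            _ = _ := by ring
        · have h1 := (mem_filter.1 hk).2
          refine mem_filter.2 ⟨mem_filter.2 ⟨mem_univ _, ?_⟩, h1⟩
          have h2 := G.tdist_star (h1 ▸ hy : y ∈ star (g.src k).y)
          have h3 := tdist_triangle (g.src k).y y x
          omega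
    _ ≤ ∑ X, ∑ k ∈ (univ.filter fun k => tdist (g.src k).y x ≤ ℓ + 1).filter
          (fun k => star (g.src k).y = X), C * Real.exp L * δ * a :=
        Finset.sum_le_sum_of_subset_of_nonneg (Finset.subset_univ _)
          fun _ _ _ => Finset.sum_nonneg fun _ _ => hw
    _ = ∑ k ∈ univ.filter (fun k => tdist (g.src k).y x ≤ ℓ + 1), C * Real.exp L * δ * a :=
        Finset.sum_fiberwise _ _ _
    _ ≤ _ := by
        rw [Finset.sum_const, nsmul_eq_mul]
        exact mul_le_of_le_one_left hw (by exact_mod_cast hK)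

end Geo

end Vale.Agent.P144Z
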